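import Vale.Agent.P283R.Ko.All
import Vale.Agent.P283R.Sl.Ko2

/-!
# P283R, block KO: local class groups without torsion
-/

open CategoryTheory AlgebraicGeometry

namespace Vale.Agent.P283R.Sl

open Var Vale.Agent.P283M

theorem onN_tf : OnN fun _ _ _ f _ _ z => TorsionFreeOver f z := by
  intro d hd ε hε R hR
  have q0 := Finset.prod_pos (s := R) fun r _ => r.den_pos
  obtain ⟨n, hn, H⟩ := onN_ko q0 d hd ε hε R hR
  refine ⟨n, hn, fun X Z f ω B z a b c e s t u => H X Z f ω B z a b c e s t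
    ⟨u.1, u.2.1, fun x hx => ?_⟩⟩
  choose k hk using C3.den e
  generalize ∏ r ∈ R, r.den = q at q0 hk
  obtain ⟨m, g, m0, g0, hg⟩ := c.2.1 x trivial
  have eq : ∀ E, ((q * formOrd ω (RingEquiv.refl X.K) E + k E : ℤ) : ℚ) = q * logCan ω B E :=
    fun E => by
      push_cast
      rw [← hk, ← mul_add]
      rfl
  obtain ⟨j, j0, hj⟩ := u.2.2 (fun E => q * formOrd ω (RingEquiv.refl X.K) E + k E) x m (g ^ q) hx
    m0 ⟨pow_ne_zero _ g0, fun E hE => by
      obtain ⟨Q, -, o⟩ := Br.pl_of (X := X.o) Br.plc E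
      have o' : ∀ a, ord a E = Q.ord a := o
      beta_reduce
      rw [eq, mul_left_comm, ← hg E hE, o', o', P297Z.Pl.ord_pow]
      push_cast
      rfl⟩
  exact ⟨j, j0, fun E hE => ((hj E hE).trans (congrArg _ (eq E))).trans (by
    rw [Nat.cast_one, one_mul])⟩

/-- locally factorial varieties are in the class -/
theorem FactorialOver.tf {X Z : Var} {f : X.X ⟶ Z.X} {z : Pt Z.X} (h : FactorialOver 1 f z) :
    TorsionFreeOver f z := fun D x m g hx m0 hg => by
  classical
  obtain ⟨j, j0, hj⟩ := Ko.loc_sum (X := X.o)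
    (D := fun E => ((if ord g E = 0 then 0 else D E : ℤ) : ℚ)) (q := 1) (r := 1) (x := x)
    ((Br.fin X.o g).subset fun E k z => k (by
      have z' : ord g E = 0 := z
      simp only [z', if_true, Int.cast_zero]))
    (fun E => ⟨_, by rw [Nat.cast_one, one_mul]⟩) fun E => h E x hx
  refine ⟨j, j0, fun E hE => (hj E hE).trans ?_⟩
  by_cases z : ord g E = 0
  · have := hg.2 E hE
    rw [z, Int.cast_zero, eq_comm, mul_eq_zero] at this
    simp only [z, if_true, Int.cast_zero, mul_zero, this.resolve_left (Nat.cast_ne_zero.2 m0.ne')]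
  · simp only [z, if_false, mul_one]

end Vale.Agent.P283R.Sl
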