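import Vale.Agent.P283R.Ko.St
import Vale.Agent.P283R.Dg.Lift
import Vale.Agent.P287D.Ku.Ex
import Vale.Agent.P283M.Kl.Bas

/-!
# P283R, block KO: extension over the base
-/

open Set

noncomputable section

namespace Vale.Agent.P283R.Ko

open Vale.Agent.P287D Vale.Agent.P283M

open Classical in
/-- **EXOR** -/
theorem exor : EXOR := by
  intro hi n K _ _ hK P u L Γ w hL hΓ o e ⟨X, nX, bX, hX⟩ ⟨w0, hw⟩
  obtain ⟨j, -, hj⟩ := Dg.Lf.adj_w hK P
  have cL := CarZ.car hL
  have cI := (Kl.inf_smp u).car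
  have cD : L - X ∈ Car K := sub_mem cL nX.car
  have z : ∀ R, Ov u R → (L - X) R = Γ R := fun R r => by
    have := hX R r
    simp only [Pi.sub_apply] at this ⊢
    linarith
  have cZ : L - X - Γ ∈ Car K := sub_mem cD hΓ
  have rz : ∀ Q, Ov (u.image P.rd) Q → res P (L - X) Q = res P Γ Q := fun Q q => by
    have h := Dg.Lf.res_off hK cZ cI (by rw [Pi.sub_apply, z P o, sub_self]) (Kl.inf_zero.2 o)
      (fun R r => by rw [Pi.sub_apply, z R (Kl.inf_zero.1 r), sub_self]) (Q := Q)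
      (by rw [Kl.res_inf hK o]; exact Kl.inf_zero.2 q)
    have h' := Aj.res_add hK P cZ hΓ
    rw [sub_add_cancel] at h'
    rw [h', Pi.add_apply, h, zero_add]
  obtain ⟨c, c0, hc⟩ := hi n P.κ (Bm.ff_κ hK P) (u.image P.rd)
    (res P (L - X) + dv j - res P L - dv w)
    (sub_mem (sub_mem (add_mem (Aj.res_car _ _) (dv_mem_Car j)) (Aj.res_car _ _)) (dv_mem_Car w))
    fun Q q => by
      have := hw Q q
      rw [hj Γ hΓ] at this
      simp only [dsc, Pi.sub_apply, Pi.add_apply, dv_apply, rz Q q] at this ⊢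
      linarith
  have cc : (-c) • inf u ∈ Car K := Submodule.smul_mem _ _ cI
  have g : ∀ R, Ov u R → dsc (n + 1) (L - X + (-c) • inf u) R = dsc (n + 1) Γ R := fun R r => by
    simp only [dsc, Pi.add_apply, Pi.smul_apply, Pi.sub_apply (cn K _), z R r, Kl.inf_zero.2 r,
      smul_zero, add_zero]
  have x : L - (L - X + (-c) • inf u) = X + c • inf u := by module
  have si := (Kl.inf_smp u).smul c0
  obtain ⟨k, hk⟩ := CarZ.int hL P
  obtain ⟨f, hf, r⟩ := Ku.extu n K hK P (L - X + (-c) • inf u) L k w (add_mem cD cc)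
    ((g P o).trans e) hL hk (x ▸ nX.add si.nef) (x ▸ bX.add_smp si) (Or.inr fun Q => by
      have h := hc Q
      obtain ⟨l, hl⟩ := CarZ.int (Aj.res_carZ hK P hL) Q
      rw [hj _ (add_mem cD cc), Aj.res_add hK P cD cc, Aj.res_smul hK P _ cI, Kl.res_inf hK o]
      simp only [dsc, Pi.sub_apply, Pi.add_apply, Pi.smul_apply, smul_eq_mul, dv_apply,
        Pi.zero_apply, hl] at h ⊢
      have h2 : -(Q.ord w + l) - 1 < ⌈cn P.κ n Q - (res P (L - X) Q +
          -c * inf (u.image P.rd) Q + Q.ord j)⌉ := Int.lt_ceil.2 (by push_cast; linarith)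
      exact_mod_cast (by omega : 0 ≤ Q.ord w + (l + ⌈cn P.κ n Q - (res P (L - X) Q +
          -c * inf (u.image P.rd) Q + Q.ord j)⌉)))
  obtain ⟨a0, a1⟩ := Dg.Lf.unit (r ▸ w0 : P.rd (f * P.t ^ k) ≠ 0)
  have f0 : f ≠ 0 := left_ne_zero_of_mul a0
  rw [P.ord_mul_t f0] at a1
  refine ⟨f, f0, by rw [hk]; exact_mod_cast a1, fun R ne ro => ?_⟩
  have h := (hf.resolve_left f0).2 R ne
  have h2 := Int.ceil_lt_add_one (dsc (n + 1) Γ R)
  rw [g R ro] at h
  simp only [dsc, Pi.sub_apply] at h h2 ⊢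
  linarith

end Vale.Agent.P283R.Ko
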