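import Vale.Agent.P283R.Ko.St
import Vale.Agent.P283R.Sl.Ko
import Vale.Agent.P283R.Sl.Un3
import Vale.Agent.P283R.Dg.Datx
import Vale.Agent.P283R.Br.Glue
import Vale.Agent.P283R.To.Sc1
import Vale.Agent.P283R.C3.On

/-!
# P283R, block KO: the scheme side
-/

open Set CategoryTheory AlgebraicGeometry Pointwise

noncomputable section

namespace Vale.Agent.P283R.Ko

open Vale.Agent.P289 (Pt DForm dimension)
open Vale.Agent.P287D Vale.Agent.P283M Vale.Agent.P283M.Br Vale.Agent.P283M.Am Vale.Agent.P297Z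
open Stm Stm.Var Vale.Agent.P270L

variable {X Z : Var} {f : X.X ⟶ Z.X} {n m : ℕ} {z : Pt Z.X} {V : Z.X.Opens}
  {ω : DForm ℂ X.K (n + 1)} {B : X.QDiv} {h : X.K}

/-- a Cartier divisor is a difference of two systems -/
theorem dif {A D : X.PrimeDiv → ℚ} (hA : AmpleOver f A) (hV : IsAffineOpen V)
    (hD : {y | D y ≠ 0}.Finite) (m0 : 0 < m) (hc : ∀ x ∈ f ⁻¹ᵁ V, ∃ g, LocalEq D m g x) :
    ∃ s t, Dif D m s t (f ⁻¹ᵁ V) := by
  classical
  obtain ⟨k, s, -, h⟩ := (amp_of hA hV).va (Am.str X) (nrm X)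
  have hE : Fs (ex D) := (hD.image Subtype.val).subset fun y a =>
    ⟨⟨y, a.1⟩, fun b => a.2 ((ex_apply ⟨y, a.1⟩).trans b), rfl⟩
  obtain ⟨c, s', hs⟩ := h.rep (nrm X) (hE.smul m) fun x hx =>
    let ⟨g, b⟩ := hc x hx; ⟨_, localEq_iff.1 b⟩
  have h1 := hs.mul h.sys
  have h2 := sys_pow h.sys c
  refine ⟨_, _, m0, bpf_of h1, bpf_of h2, fun x hx a b u v => ?_⟩
  have := (u.gn h1 hx).mul (v.gn h2 hx).inv
  rw [localEq_iff, inv_div, div_eq_mul_inv]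
  convert this using 1
  rw [Nat.cast_succ, add_smul, one_smul]
  abel

theorem fin_log (hK : FF X.K (n + 1)) (fr : P283M.Br.Frm ω h) (B : X.QDiv) :
    {y | logCan ω B y ≠ 0}.Finite :=
  ((P283R.Br.form_fin hK fr).union B.support.finite_toSet).subset fun E hE => by
    by_cases c : B E = 0
    · exact .inl fun e => hE (by rw [logCan, c, e, Int.cast_zero, add_zero])
    · exact .inr (Finsupp.mem_support_iff.2 c)

/-- from the fibre to a neighbourhood -/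
theorem tube (hK : FF X.K (n + 1)) (fr : P283M.Br.Frm ω h) (hf : Contraction f)
    (hc : ∀ x : Pt X.X, Pt.map f x = z → ∃ g, LocalEq (logCan ω B) m g x) :
    ∃ V : Z.X.Opens, IsAffineOpen V ∧ z ∈ V ∧
      ∀ x ∈ f ⁻¹ᵁ V, ∃ g, LocalEq (logCan ω B) m g x := by
  have := hf.2.1
  let U : Z.X.Opens := ⟨(f '' (⋃ g, {x : X.X | LocalEq (logCan ω B) m g x})ᶜ)ᶜ,
    (f.isClosedMap _ (isOpen_iUnion fun g =>
      P283R.Br.open_localEq hK fr B m g).isClosed_compl).isOpen_compl⟩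
  obtain ⟨V, hV, zV, le⟩ := exists_isAffineOpen_mem_and_subset (U := U) (x := z)
    fun ⟨x, a, b⟩ => a (mem_iUnion.2 (hc x b))
  exact ⟨V, hV, zV, fun x hx => mem_iUnion.1 (not_not.1 fun k => le hx ⟨x, k, rfl⟩)⟩

/-- the scheme side -/
theorem sch (H : KOL) {ε : ℝ} (e0 : 0 < ε) (m1 : 1 ≤ m) (hdim : dimension X.str = (n + 1 : ℕ))
    (hω : ω.Nonzero) (hB : Pair (ε ≤ ·) ⊤ ω B) (hf : Contraction f) (hF : FanoType f ω)
    (hn : NefOver f (-logCan ω B)) (hz : IsClosed ({z} : Set (Pt Z.X)))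
    (hc : ∀ x : Pt X.X, Pt.map f x = z → ∃ g, LocalEq (logCan ω B) m g x) :
    HasKltComplement f ω B ((n + 2).factorial * m) z := by
  have hK := ffd X _ hdim
  obtain ⟨h, h0, fr⟩ := frm X _ hK ω hω
  obtain ⟨V, hV, zV, hc⟩ := tube hK fr hf hc
  obtain ⟨u, bs⟩ := Sch.basV hf hz hV zV
  obtain ⟨Λ, Γ, Γ', a, ⟨m₁, t₁, t₂, d1, rfl⟩, on, cf, nf, e⟩ := Dg.Dx.dataX hK h0 fr
    ⟨hB.1, hB.2.1, fun _ _ _ _ _ _ _ => trivial⟩ hf hF bs
  obtain ⟨C, -, hA⟩ := hF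
  obtain ⟨s₁, s₂, d2⟩ := dif (D := -logCan ω B) hA hV
    ((fin_log hK fr B).subset fun _ h => neg_ne_zero.1 h) m1 fun x hx =>
      let ⟨g, b⟩ := hc x hx; ⟨_, localEq_neg plc b⟩
  refine e _ (Nat.mul_pos (Nat.factorial_pos _) m1) (H n m X.K u Λ _ Γ' (mx s₁ - mx s₂ + m • dv h)
    ⟨a, fun _ => klr a a.dn.neg (nf hn), fun P o => ?_, fun P o k => ?_, m1,
      add_mem (sub_mem (mx_mem_CarZ _) (mx_mem_CarZ _)) (nsmul_mem (dv_mem_CarZ h) m),
      fun P o => ?_⟩) <;> obtain ⟨x, hx, dm⟩ := bs.ctr P.ring P.con o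
  · have := disc har plc mdc mod hB fr d1 hx dm
    linarith
  · rw [cf P ⟨x, (on P x hx dm).1 k⟩ hx dm, neg_nonpos]
    exact Rat.cast_nonneg.2 (hB.1 _ trivial)
  · obtain ⟨g, hg⟩ := hc x hx
    have c : (m : ℝ) ≠ 0 := Nat.cast_ne_zero.2 (by omega)
    have p := mul_left_cancel₀ c (d2.pull har plc hx dm (localEq_neg plc hg))
    rw [gam_eq har plc d1 hx dm m1 hg, Pi.add_apply, Pi.sub_apply, p, Pl.ord_inv, Pi.smul_apply,
      dv_apply, nsmul_eq_mul]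
    push_cast
    field_simp
    ring

/-- products of local equations -/
theorem loc_sum {D : X.PrimeDiv → ℚ} (hD : {y | D y ≠ 0}.Finite) {q r : ℕ} {x : Pt X.X}
    (hq : ∀ E, ∃ k : ℤ, q * D E = k)
    (h : ∀ E : X.PrimeDiv, ∃ g, LocalEq (Finsupp.single E (1 : ℚ)) r g x) :
    ∃ g, LocalEq D (r * q) g x := by
  classical
  choose c hc using hq
  choose g hg using h
  refine ⟨∏ E ∈ hD.toFinset, g E ^ c E,
    Finset.prod_ne_zero_iff.2 fun E _ => zpow_ne_zero _ (hg E).1, fun E hE => ?_⟩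
  obtain ⟨Q, -, o⟩ := pl_of plc E
  rw [o, Q.ord_prod _ fun E _ => zpow_ne_zero _ (hg E).1]
  push_cast
  rw [mul_assoc, hc, Finset.sum_eq_single E (fun E' _ k => ?_) fun k => ?_]
  · rw [Pl.ord_zpow, ← o, Int.cast_mul, (hg E).2 E hE, Finsupp.single_eq_same, mul_one, mul_comm]
  · rw [Pl.ord_zpow, ← o, Int.cast_mul, (hg E').2 E hE, Finsupp.single_eq_of_ne k.symm, mul_zero,
      mul_zero]
  · have : (c E : ℚ) = 0 := by rw [← hc, not_not.1 (mt hD.mem_toFinset.2 k), mul_zero]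
    rw [Pl.ord_zpow, Int.cast_mul, this, zero_mul]

end Vale.Agent.P283R.Ko

namespace Vale.Agent.P283R.Sl

open Var Vale.Agent.P283M

/-- bounded Cartier index -/
theorem onN_ko_of (h : Ko.KOL) {m : ℕ} (hm : 1 ≤ m) :
    OnN fun _ _ _ f ω B z => CartierOver m f ω B z := by
  intro d hd ε hε R _
  obtain ⟨n, rfl⟩ : ∃ n, d = n + 1 := ⟨d - 1, by omega⟩
  exact ⟨(n + 2).factorial * m, Nat.mul_pos (Nat.factorial_pos _) hm,
    fun X Z f ω B z a b c _ s t u => (has_iff f ω B _ z).2 (Ko.sch (X := X.o) (Z := Z.o) h hε hm a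
      b ((pair_iff _ _ ω B).1 c) s ((fanoType_iff f ω).1 u.1) ((nefOver_iff f _).1 u.2.1) t u.2.2)⟩

/-- factorial varieties have a bounded Cartier index -/
theorem FactorialOver.cartier {X Z : Var} {d r q : ℕ} {f : X.X ⟶ Z.X} {ω : X.Form d} {B : X.QDiv}
    {z : Pt Z.X} (h : FactorialOver r f z) (hd : 1 ≤ d) (a : dimension X.str = d) (b : ω.Nonzero)
    (hq : ∀ E, ∃ k : ℤ, q * B.coeff E = k) : CartierOver (r * q) f ω B z := fun x hx => by
  obtain ⟨n, rfl⟩ : ∃ n, d = n + 1 := ⟨d - 1, by omega⟩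
  have hK := Br.ffd X.o _ a
  obtain ⟨j, -, fr⟩ := Br.frm X.o _ hK ω b
  refine Ko.loc_sum (X := X.o) (Ko.fin_log hK fr B) (fun E => ?_) fun E => h E x hx
  obtain ⟨k, e⟩ := hq E
  refine ⟨q * formOrd ω (RingEquiv.refl X.K) E + k, ?_⟩
  push_cast
  rw [← e, ← mul_add]
  rfl

/-- locally factorial varieties -/
theorem onN_fac_of (h : Ko.KOL) {r : ℕ} (hr : 1 ≤ r) :
    OnN fun _ _ _ f _ _ z => FactorialOver r f z := by
  intro d hd ε hε R hR
  obtain ⟨n, hn, H⟩ := onN_ko_of h (Nat.mul_pos hr (Finset.prod_pos (s := R) fun r _ => r.den_pos))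
    d hd ε hε R hR
  exact ⟨n, hn, fun X Z f ω B z a b c e s t u => H X Z f ω B z a b c e s t
    ⟨u.1, u.2.1, u.2.2.cartier hd a b (C3.den e)⟩⟩

end Vale.Agent.P283R.Sl
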