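import Vale.Agent.P283R.Ko.St
import Vale.Agent.P283R.Un.Fg

/-!
# P283R, block KO: klt at infinity, vertical poles
-/

open Set

noncomputable section

namespace Vale.Agent.P283R.Ko

open Vale.Agent.P287D Vale.Agent.P283M

namespace I39

variable {n : ℕ} {K : Type} [Field K] [Algebra ℂ K] {u : Finset K} {β : BD K} {P : Pl K}

theorem nn {x : K} (hx : x ∈ Algebra.adjoin ℂ (u : Set K)) (o : Ov u P) : 0 ≤ P.ord x := by
  refine P297Z.Pl.ord_nonneg_of_mem P.toPlace ?_
  induction hx using Algebra.adjoin_induction with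
  | mem x h => exact o x h
  | algebraMap c => exact P.con c
  | add _ _ _ _ a b => exact add_mem a b
  | mul _ _ _ _ a b => exact mul_mem a b

theorem ls (hK : FF K (n + 1)) (u : Finset K) (hβ : β ∈ Car K) :
    ∃ (A κ : BD K) (T : Finset (Pl K)) (h : Pl K → BD K), LS n A κ T h ∧ Sup n A T (κ - β) ∧
      Sup n A T (inf u) := by
  obtain ⟨w, κ, T, h, l, -, c, d⟩ := exists_ls hK finite_empty (toFinite {β, inf u}) (by
    simp only [mem_insert_iff, mem_singleton_iff, forall_eq_or_imp, forall_eq]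
    exact ⟨hβ, (Kl.inf_smp u).car⟩)
  exact ⟨_, κ, T, h, l, c.sub (d β (by simp)), d _ (by simp)⟩

end I39

open I39

/-- **INF** -/
theorem inf39 : INF := by
  intro n K _ _ hK u β hβ k
  rcases n with _ | n
  · exact ⟨0, le_rfl, fun Q => (Bm.no_pl hK Q).elim⟩
  classical
  obtain ⟨A, κ, T, h, l, s, d⟩ := ls hK u hβ
  obtain ⟨c, hc⟩ := Un.exists_large (T.filter fun P => ¬ Ov u P) (dsc (n + 1) β) (inf u)
    fun P hP => Kl.inf_pos (Finset.mem_filter.1 hP).2
  refine ⟨c, c.cast_nonneg, fun Q => ?_⟩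
  have e : κ - (β - (c : ℝ) • inf u) = κ - β + (c : ℝ) • inf u := by abel
  have := l.gt (Q := Q) (e ▸ s.add (d.smul c)) le_rfl one_pos fun P hP _ => by
    have x : dsc (n + 1) (β - (c : ℝ) • inf u) P = dsc (n + 1) β P + c * inf u P := by
      simp only [dsc, Pi.sub_apply, Pi.smul_apply, smul_eq_mul]
      ring
    by_cases o : Ov u P
    · rw [x, Kl.inf_zero.2 o]
      linarith [k P o]
    · linarith [hc c le_rfl P (Finset.mem_filter.2 ⟨hP, o⟩)]
  linarith

/-- **CLR** -/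
theorem clr39 : CLR := by
  intro n K _ _ hK u β hβ k
  rcases n with _ | n
  · exact ⟨1, one_ne_zero, fun Q => (Bm.no_pl hK Q).elim⟩
  classical
  obtain ⟨A, κ, T, h, l, s, d⟩ := ls hK u hβ
  have ex : ∀ P : Pl K, ∃ b ∈ Algebra.adjoin ℂ (u : Set K), b ≠ 0 ∧ (¬ Tv u P → P.ord b ≠ 0) :=
    fun P => by
      by_cases t : Tv u P
      · exact ⟨1, one_mem _, one_ne_zero, fun x => (x t).elim⟩
      · simp only [Tv, not_forall] at t
        obtain ⟨b, x, y, z⟩ := t
        exact ⟨b, x, y, fun _ => z⟩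
  choose b b1 b2 b3 using ex
  have p0 : ∏ P ∈ T, b P ≠ 0 := Finset.prod_ne_zero_iff.2 fun P _ => b2 P
  obtain ⟨c, hc⟩ := Un.exists_large (T.filter fun P => Ov u P ∧ ¬ Tv u P) (dsc (n + 1) β)
    (dv (∏ P ∈ T, b P)) fun P hP => by
      obtain ⟨hP, o, t⟩ := Finset.mem_filter.1 hP
      rw [dv_apply, P.ord_prod T fun Q _ => b2 Q, Int.cast_pos]
      exact ((nn (b1 P) o).lt_of_ne' (b3 P t)).trans_le
        (Finset.single_le_sum (f := fun Q => P.ord (b Q)) (fun Q _ => nn (b1 Q) o) hP)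
  have m : (∏ P ∈ T, b P) ^ c ∈ Algebra.adjoin ℂ (u : Set K) :=
    pow_mem (prod_mem fun P _ => b1 P) c
  have e : ∀ P, dv ((∏ P ∈ T, b P) ^ c) P = c * dv (∏ P ∈ T, b P) P := fun P => by
    rw [dv_pow, Pi.smul_apply, smul_eq_mul]
  refine ⟨_, pow_ne_zero c p0, fun Q o => ?_⟩
  generalize (∏ P ∈ T, b P) ^ c = g at m e
  obtain ⟨x, y⟩ := l.hull_sum (T := T) (dv g)
  set S := ∑ P ∈ T, dv g P • h P
  have le : 0 ≤ (dv g - S) Q := Kl.harto' hK l.big ((Dsc.dv l.smp g).sub x) d.1 (fun P v p => by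
    rw [Pi.sub_apply, y P p]
    split_ifs
    · simp
    · simpa [dv_apply] using nn m v) o
  have z : ∀ P, dsc (n + 1) (β - S) P = dsc (n + 1) β P + S P := fun P => by
    simp only [dsc, Pi.sub_apply]
    ring
  have e' : κ - (β - S) = κ - β + S := by abel
  have := l.gt (Q := Q) (e' ▸ s.add ⟨x, fun P p q => by rw [y P p, if_neg q]⟩) le_rfl one_pos
    fun P hP p => by
      have v : Ov u P := by
        by_contra v
        have := l.le_smul d.1 (Kl.inf_nn u) (l.on P hP) Q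
        rw [Pi.smul_apply, smul_eq_mul, Kl.inf_zero.2 o] at this
        exact (mul_pos (Kl.inf_pos v) p).not_ge this
      rw [z, y P (l.on P hP), if_pos hP]
      by_cases t : Tv u P
      · have : (0 : ℝ) ≤ dv g P := by simpa [dv_apply] using nn m v
        linarith [k P t]
      · linarith [hc c le_rfl P (Finset.mem_filter.2 ⟨hP, v, t⟩), e P]
  rw [z] at this
  rw [Pi.sub_apply, dv_apply] at le
  linarith

end Vale.Agent.P283R.Ko
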