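import Vale.Agent.P283R.Ko.St
import Vale.Agent.P287D.Gf.Six
import Vale.Agent.P287D.Gf.Vp

/-!
# P283R, block KO: effective non-vanishing over the base
-/

open Set

noncomputable section

namespace Vale.Agent.P283R.Ko

open Vale.Agent.P287D Vale.Agent.P283M Vale.Agent.P297Z

namespace N63

variable {K : Type} [Field K] [Algebra ℂ K] {u : Finset K} {Q : Pl K}

theorem hor (h : Tv u Q) : Hor (cl (IntermediateField.adjoin ℂ (u : Set K))) Q := by
  set E := IntermediateField.adjoin ℂ (u : Set K)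
  have h0 : ∀ a ∈ E, a ∈ Q.ring := fun a ha => by
    obtain ⟨p, hp, q, hq, rfl⟩ := IntermediateField.mem_adjoin_iff_div.1 ha
    by_cases p0 : p = 0
    · simp [p0, zero_mem]
    by_cases q0 : q = 0
    · simp [q0, zero_mem]
    refine (Pl.ord_nonneg_iff _ (div_ne_zero p0 q0)).1 ?_
    rw [Pl.ord_div _ p0 q0]
    have a := h p hp p0
    have b := h q hq q0
    omega
  intro x hx
  let _ : Algebra E Q.ring := ((algebraMap E K).codRestrict Q.ring fun a => h0 a a.2).toAlgebra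
  have : IsScalarTower E Q.ring K := .of_algebraMap_eq fun _ => rfl
  obtain ⟨y, rfl⟩ := IsIntegrallyClosed.isIntegral_iff.1
    ((mem_algebraicClosure_iff.1 hx : IsAlgebraic E x).isIntegral.tower_top (A := Q.ring))
  exact y.2

theorem ov (h : Hor (cl (IntermediateField.adjoin ℂ (u : Set K))) Q) : Ov u Q := fun a ha =>
  h a (mem_algebraicClosure_iff.2 (isAlgebraic_algebraMap
    (⟨a, IntermediateField.subset_adjoin _ _ ha⟩ : IntermediateField.adjoin ℂ (u : Set K))))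

end N63

open N63

/-- **NVOR** -/
theorem nvor63 : NVOR := by
  intro pol clr n K _ _ hK u s L Γ k hL hΓ k1 ⟨g, gs, g0⟩ hk klt ⟨X, x1, x2, x3⟩
  obtain ⟨r, hr, hF⟩ := Gm.ff_sub hK (cl (IntermediateField.adjoin ℂ (u : Set K)))
  obtain ⟨m, rfl⟩ := Nat.exists_eq_add_of_le hr
  obtain ⟨K', _, _, φ, gf⟩ := g1 K _ (Gf.cld_cl _) ⟨r, hF⟩
  have h : GFd r m _ φ := ⟨gf, hK, hF⟩
  obtain ⟨f, -, e⟩ := g4 r m K K' _ φ h
  have ds : ∀ (j : ℝ) P Q, Lies φ P Q →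
      dsc m (pb φ Γ + dv f - j • pb φ L) P = dsc (r + m) (Γ - j • L) Q := fun j P Q l => by
    simp only [dsc, e, Pi.sub_apply, Pi.add_apply, Pi.smul_apply, gf.pb_eq l]
    ring
  have e1 : pb φ L - (pb φ Γ + dv f) = pb φ X + -dv f := by
    rw [← (h.pb_eq (β := L - Γ) (γ := X)).2 fun Q hQ => x3 Q (ov hQ), pb_sub]
    abel
  have pf : -dv f ∈ Prn K' := neg_mem (dv_mem_Prn f)
  obtain ⟨j, j1, j2, f', f0, hf⟩ := pol m K' h.ff (pb φ L) (pb φ Γ + dv f) k (h.ok.carZ hL)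
    (Nef.of_smul (c := k) (by exact_mod_cast k1) (by
      rw [← pb_smul, (h.pb_eq (β := (k : ℝ) • L) (γ := mx s)).2 fun Q hQ => hk Q (ov hQ)]
      exact h.ok.nef (nef_mx s)))
    (e1 ▸ (h.ok.nef x1).add_prn pf) (e1 ▸ (Gx.big_pb h.ok gf.gen x2).add_prn pf) k1
    ⟨φ g, (map_ne_zero φ).2 g0, fun P _ => by
      obtain ⟨Q, l⟩ := gf.below h.ff P
      have o := ov (gf.toExt.hor l)
      have a := klt Q o
      have b := hk Q o
      have c : ((-Q.ord g : ℤ) : ℝ) ≤ mx s Q := Int.cast_le.2 (Q.le_mz gs g0)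
      rw [ds _ P Q l, gf.ord_eq l]
      simp only [dsc, Pi.sub_apply, Pi.smul_apply, smul_eq_mul] at a ⊢
      push_cast at c
      linarith⟩
  let β : BD K := fun Q => (⌈dsc (r + m) (Γ - (j : ℝ) • L) Q⌉ : ℤ)
  have sc : Sec (pb φ β) f' := Or.inr fun P => by
    obtain ⟨Q, l⟩ := gf.below h.ff P
    have a := hf P fun _ z => absurd z (Finset.notMem_empty _)
    rw [ds _ P Q l] at a
    have b : -1 - P.ord f' < ⌈dsc (r + m) (Γ - (j : ℝ) • L) Q⌉ := Int.lt_ceil.2 (by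
      push_cast; linarith)
    rw [Pi.add_apply, gf.pb_eq l, Pi.zero_apply]
    change (0 : ℝ) ≤ (P.ord f' : ℤ) + (⌈dsc (r + m) (Γ - (j : ℝ) • L) Q⌉ : ℤ)
    exact_mod_cast (by omega : 0 ≤ P.ord f' + ⌈dsc (r + m) (Γ - (j : ℝ) • L) Q⌉)
  have sp := (g3 r m K K' _ φ h).2.2.1 β f' sc
  obtain ⟨t, t0, ht⟩ : ∃ t : K, t ≠ 0 ∧ ∀ Q, Hor (cl (IntermediateField.adjoin ℂ (u : Set K))) Q →
      0 ≤ (dv t + β) Q := by
    by_contra z
    rw [show {t : K | t ≠ 0 ∧ ∀ Q, Hor (cl (IntermediateField.adjoin ℂ (u : Set K))) Q →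
      0 ≤ (dv t + β) Q} = ∅ from eq_empty_of_forall_notMem fun t k => z ⟨t, k⟩, image_empty,
      Submodule.span_empty] at sp
    exact f0 sp
  have dt : ∀ Q, dsc (r + m) (Γ - (j : ℝ) • L - dv t) Q =
      dsc (r + m) (Γ - (j : ℝ) • L) Q + Q.ord t := fun Q => by
    simp only [dsc, dv, Pi.sub_apply]
    ring
  obtain ⟨b, b0, hb⟩ := clr (r + m) K hK u (Γ - (j : ℝ) • L - dv t)
    (sub_mem (sub_mem hΓ (Submodule.smul_mem _ _ (CarZ.car hL))) (dv_mem_Car t)) fun Q hQ => by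
      have a : (0 : ℝ) ≤ (Q.ord t : ℤ) + (⌈dsc (r + m) (Γ - (j : ℝ) • L) Q⌉ : ℤ) := ht Q (hor hQ)
      have c := Int.ceil_lt_add_one (dsc (r + m) (Γ - (j : ℝ) • L) Q)
      rw [dt]
      linarith
  refine ⟨j, j1, by omega, t * b, mul_ne_zero t0 b0, fun P o => ?_⟩
  have a := hb P o
  rw [dt] at a
  rw [Pl.ord_mul _ t0 b0]
  push_cast
  linarith

end Vale.Agent.P283R.Ko
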