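import Vale.Agent.P283R.Ko.St
import Vale.Agent.P287D.Fg.Fgu
import Vale.Agent.P287D.Ku.Km

/-!
# P283R, block KO: effective non-vanishing
-/

open Set Filter Topology
open Vale.Agent.P297 (Place)
open Vale.Agent.P277Z Vale.Agent.P277Z.FI

noncomputable section

namespace Vale.Agent.P283R.Ko

open Vale.Agent.P287D

namespace P81

/-- a sequence whose differences of order `n + 1` vanish -/
theorem van {n : ℕ} (h : ℕ → ℕ)
    (H : ∀ j, 1 ≤ j → ∑ J : Finset (Fin (n + 1)), (-1 : ℤ) ^ J.card * (h (j + J.card) : ℤ) = 0)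
    (h0 : ∀ j, 1 ≤ j → j ≤ n + 1 → h j = 0) (j : ℕ) (hj : 1 ≤ j) : h j = 0 := by
  induction j using Nat.strong_induction_on with
  | _ j ih =>
    by_cases c : j ≤ n + 1
    · exact h0 j hj c
    have e := H (j - (n + 1)) (by omega)
    rw [Finset.sum_eq_single Finset.univ (fun J _ ne => by
      have := (Finset.card_lt_iff_ne_univ J).2 ne
      rw [Fintype.card_fin] at this
      rw [ih _ (by omega) (by omega), Nat.cast_zero, mul_zero])
      fun a => (a (Finset.mem_univ _)).elim, Finset.card_univ, Fintype.card_fin,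
      Nat.sub_add_cancel (by omega), mul_eq_zero] at e
    exact_mod_cast e.resolve_left (pow_ne_zero _ (by simp))

theorem small {K : Type} [Field K] (B E : P277Z.Div K) (h : ∀ Q, B Q < 1) :
    ∃ ε : ℝ, 0 < ε ∧ ε ≤ 1 ∧ ∀ Q, B Q + ε * E Q ≤ 1 := by
  have a : ∀ᶠ ε : ℝ in 𝓝[>] 0, 0 < ε ∧ ε ≤ 1 ∧ ∀ Q ∈ E.support, B Q + ε * E Q ≤ 1 :=
    eventually_mem_nhdsWithin.and ((eventually_nhdsWithin_of_eventually_nhds
      (ge_mem_nhds one_pos)).and ((eventually_all_finset _).2 fun Q _ =>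
        eventually_nhdsWithin_of_eventually_nhds ((ContinuousAt.eventually_lt (f := fun ε : ℝ =>
          B Q + ε * E Q) (g := fun _ => 1) (by fun_prop) (by fun_prop)
            (by simpa using h Q)).mono fun _ => le_of_lt)))
  obtain ⟨ε, a, b, c⟩ := a.exists
  refine ⟨ε, a, b, fun Q => ?_⟩
  by_cases q : Q ∈ E.support
  · exact c Q q
  · simpa [Finsupp.notMem_support_iff.1 q] using (h Q).le

end P81

open P81 Ba in
theorem pol : POL := by
  intro n K _ _ hK L Γ J hL ⟨s, hs⟩ hn hb hJ ⟨f, f0, hf⟩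
  have cΓ : Γ ∈ Car K := by simpa using sub_mem (CarZ.car hL) hn.car
  obtain ⟨M, U, E, D, hM, uf, us, uk, hE, hD⟩ := Fg.nbF hK (X := fun _ : Unit => L - Γ)
    (fun _ => ⟨hn, hb⟩) (β := ![L, Γ, mx s]) fun i => by
      fin_cases i
      exacts [CarZ.car hL, cΓ, mx_mem_Car s]
  obtain ⟨a1, (a2 : L = _), a3, a4⟩ := hD 0
  obtain ⟨b1, (b2 : Γ = _), b3, -⟩ := hD 1
  obtain ⟨c1, (c2 : mx s = _), -, -⟩ := hD 2
  replace a4 := a4 hL
  obtain ⟨kd, eU⟩ := hE ()
  have nf : M.Nef (D 0) := fun A hA => by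
    obtain ⟨ε, a, b⟩ := (hpos hM).opn A (-D 2) hA
    have := Nb.smp_nef hM (dv_add a1 (FI.dv_smul c1 ε)) (by
      rw [map_add, map_smul, ← a2, ← c2]
      exact hs ε a) _ b
    simpa [add_assoc] using this
  set C := Kv.ce (KM M - D 1) with hC
  have cz : ∀ Q, KM M Q = 0 → D 1 Q = 0 → C Q = 0 := fun Q a b => by simp [hC, Kv.ce_apply, a, b]
  have dC : M.Dv C := dv_iff.2 fun Q q => cz Q (dv_iff.1 (KM_dv hM) Q q) (dv_iff.1 b1 Q q)
  obtain ⟨ε, e0, e1, e2⟩ := small (C - (KM M - D 1)) (E ()) fun Q =>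
    sub_lt_iff_lt_add'.2 (Int.ceil_lt_add_one _)
  have am := kd.amp hM (dv_sub a1 b1) (by rw [map_sub, ← a2, ← b2]) e0 e1
  obtain ⟨_, -, -, -, -, E0, -⟩ := kd
  have bd : F5.Bd1 U (C - (KM M - D 1) + ε • E ()) := ⟨fun Q q => by_contra fun w => by
    have k1 : KM M Q = 0 := by_contra fun a => w (uk Q a)
    have k2 : D 1 Q = 0 := Finsupp.notMem_support_iff.1 fun a => w (b3 a)
    have k3 : E () Q = 0 := by_contra fun a => w (eU Q a)
    exact Finsupp.mem_support_iff.1 q (by simp [k1, k2, k3, cz Q k1 k2]), fun Q =>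
      ⟨add_nonneg (sub_nonneg.2 (Int.le_ceil _)) (mul_nonneg e0.le (E0 Q)), e2 Q⟩⟩
  have key : ∀ (j : ℕ) (g : K), g ≠ 0 →
      (g ∈ M.H0 ((j : ℝ) • D 0 + C) ↔ ∀ P, -1 < dsc n (Γ - (j : ℝ) • L) P + P.ord g) := by
    intro j g g0
    have e : Γ - (j : ℝ) • L = bar M (D 1 - (j : ℝ) • D 0) := by rw [map_sub, map_smul, ← a2, ← b2]
    have k : ∀ Q : Pl K, M.Pr Q.toPlace → (0 ≤ (Q.ord g : ℝ) + ((j : ℝ) • D 0 + C) Q.toPlace ↔
        -1 < dsc n (Γ - (j : ℝ) • L) Q + Q.ord g) := fun Q q => by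
      obtain ⟨z, hz⟩ := a4 Q.toPlace
      have w := Int.lt_ceil (z := -1 - Q.ord g - j * z) (a := (KM M - D 1) Q.toPlace)
      rw [e, dsc, Pi.sub_apply, ← KM_pr hM q |>.symm, bar_pr hM q]
      simp only [Finsupp.add_apply, Finsupp.smul_apply, Finsupp.sub_apply, smul_eq_mul, hz, hC,
        Kv.ce_apply] at w ⊢
      rw [← Int.cast_natCast, ← Int.cast_mul, ← Int.cast_add, ← Int.cast_add, Int.cast_nonneg_iff]
      push_cast at w ⊢
      constructor
      · intro h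
        have := w.1 (by omega)
        linarith
      · intro h
        have := w.2 (by linarith)
        omega
    refine ⟨fun h P => ?_, fun h => .inr fun Q q => (k (Bm.toPl hM q) q).2 (h _)⟩
    obtain ⟨x, hx⟩ := ct hM P
    rw [e]
    refine (Ku.aj_ct hM us (fun Q q => by_contra fun w => Finsupp.mem_support_iff.1 q ?_)
      (fun Q q => .inr (e ▸ (k Q ⟨x, q⟩).1 (h.resolve_left g0 _ ⟨x, q⟩))) hx).resolve_left g0
    simp [Finsupp.notMem_support_iff.1 fun a => w (b3 a),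
      Finsupp.notMem_support_iff.1 fun a => w (a3 a)]
  have fin := ((I.cpA n 0 K M hM).2 (cpt M)).1
  have nz : ∀ A : P277Z.Div K, F5.h0 M A = 0 ↔ ∀ g ∈ M.H0 A, g = 0 := fun A => by
    have := fin A
    rw [F5.h0, Submodule.finrank_eq_zero, Submodule.eq_bot_iff]
    rfl
  by_contra! w
  refine f0 ((nz _).1 (van (n := n) (fun j => F5.h0 M ((j : ℝ) • D 0 + C)) (fun j hj => ?_)
    (fun j a b => (nz _).2 fun g hg => by_contra fun g0 =>
      w j a b g ⟨g0, fun P _ => (key j g g0).1 hg P⟩) J hJ) f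
    ((key J f f0).2 fun P => hf P fun _ a => (Finset.notMem_empty _ a).elim))
  have e : ∀ T : Finset (Fin (n + 1)), (j : ℝ) • D 0 + C + ∑ _i ∈ T, D 0 =
      ((j + T.card : ℕ) : ℝ) • D 0 + C := fun T => by
    rw [Finset.sum_const, ← Nat.cast_smul_eq_nsmul ℝ, Nat.cast_add]
    module
  have := I.polyA n 0 K M hM (cpt M) (KM M) _ ((j : ℝ) • D 0 + C) U (fun _ => D 0)
    ⟨KM_isCan hM, uf, us⟩ bd (dv_add (FI.dv_smul a1 _) dC) (fun Q => by
      obtain ⟨z, hz⟩ := a4 Q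
      exact ⟨j * z + ⌈(KM M - D 1) Q⌉, by simp [hz, hC, Kv.ce_apply]⟩) (fun _ => ⟨a1, a4⟩)
    fun T => by
      have := F5.nef_smul (hpos hM) nf (c := j + T.card - 1) (by
        have : (1 : ℝ) ≤ j := by exact_mod_cast hj
        have : (0 : ℝ) ≤ T.card := Nat.cast_nonneg _
        linarith) _ am
      rw [e, Nat.cast_add]
      convert this using 1
      module
  simpa only [e] using this

end Vale.Agent.P283R.Ko
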