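import Vale.Agent.P283R.Ko.St
import Vale.Agent.P283R.Un.Fg
import Vale.Agent.P283R.To.Lin
import Vale.Agent.P277Z.Gr.PL
import Vale.Agent.P287D.Ba.PosOn

/-!
# P283R, block KO: the base point free theorem over the base, the fixed part
-/

open Set

noncomputable section

namespace Vale.Agent.P283R.Ko

open Vale.Agent.P287D Vale.Agent.P283M P277Z.Gr

namespace S5

variable {n m q k : ℕ} {K : Type} [Field K] [Algebra ℂ K] {u : Finset K} {Λ Γ Γ' L : BD K}

/-- a multiple of a rational class which is semiample over the base is free over the base -/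
theorem nsm {β : BD K} (h : SmpO u β) (hq : ∀ P, Ov u P → ∃ q : ℚ, β P = q) :
    ∃ (N : ℕ) (s : Finset K), 0 < N ∧ Nz s ∧ ∀ P, Ov u P → N * β P = mx s P := by
  classical
  obtain ⟨_, ⟨l, hl, rfl⟩, e⟩ := h
  obtain ⟨φ, hφ⟩ := exists_qlin (insert 1 (l.support.image l))
  have h1 := hφ 1 (Finset.mem_insert_self _ _) one_pos
  obtain ⟨N, s, N0, nz, k⟩ := (Smp.sum l.support
    (b := fun s => ((φ (l s) / φ 1 : ℚ) : ℝ) • mx s) fun s hs => (smp_mx s).smul
      (Rat.cast_nonneg.2 (div_pos (hφ _ (Finset.mem_insert_of_mem (Finset.mem_image_of_mem l hs))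
        ((hl s).lt_of_ne' (Finsupp.mem_support_iff.1 hs))) h1).le)).exists_nsmul fun P =>
    ⟨∑ s ∈ l.support, φ (l s) / φ 1 * P.mz s, by simp [mx_apply]⟩
  refine ⟨N, s, N0, nz, fun P o => ?_⟩
  rw [← k, Pi.smul_apply, smul_eq_mul]
  congr 1
  obtain ⟨q, hq⟩ := hq P o
  have k := congrArg φ (hq.symm.trans (e P o))
  simp only [cmb_sum, Finset.sum_apply, Pi.smul_apply, smul_eq_mul, map_sum, mx_apply] at k ⊢
  rw [← mul_one (q : ℝ), ← Rat.smul_def, map_smul, smul_eq_mul, ← eq_div_iff h1.ne'] at k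
  rw [hq, k, Finset.sum_div, Rat.cast_sum]
  refine Finset.sum_congr rfl fun s _ => ?_
  rw [mul_comm (l s), ← zsmul_eq_mul, map_zsmul, zsmul_eq_mul]
  push_cast
  ring

/-- the generators -/
theorem setup (x : Kd n m u Λ Γ Γ' L) : ∃ (r q : ℕ) (D : Fin 2 → Pl K → ℤ)
    (d : Fin q → Fin 2 → ℤ) (g : Fin q → K), 0 < r ∧ (∀ P, (D 0 P : ℝ) = L P) ∧
      (∀ P, (D 1 P : ℝ) = -(r * Γ' P)) ∧ Gens (Un.Hs {P | Ov u P} D) univ d g := by
  obtain ⟨r, r0, hr⟩ := x.dat.car'
  choose D0 h0 using CarZ.int x.int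
  choose D1 h1 using CarZ.int (neg_mem hr)
  have a := x.dat
  have fin : ∀ {β : BD K} {E : Pl K → ℤ}, β ∈ CarZ K → (∀ P, β P = E P) →
      {P | Ov u P ∧ On n Λ P ∧ E P ≠ 0}.Finite := fun {β E} hβ e =>
    (Pr.fin_on res' a.ff a.smp a.big ((Api.mod.isb n K a.ff).1 β (CarZ.car hβ))).subset
      fun P hP => ⟨hP.2.1, by rw [e]; exact_mod_cast hP.2.2⟩
  have e1 : ∀ P, (D1 P : ℝ) = -(r * Γ' P) := fun P => (h1 P).symm
  have fg := Un.fg a ![D0, D1] (Fin.forall_fin_two.2 ⟨fin x.int h0, fin (neg_mem hr) h1⟩)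
  have : Un.Hs {P | Ov u P ∧ On n Λ P} ![D0, D1] = Un.Hs {P | Ov u P} ![D0, D1] := by
    funext e
    ext f
    simp only [Un.mem_Hs]
    refine ⟨fun h f0 P o => ?_, fun h f0 P o => h f0 P o.1⟩
    have ev : ∀ P, Ov u P → (dv f + ((-(e 0 * m) : ℝ) • Γ + (-(e 1 * r) : ℝ) • Γ')) P =
        ((P.ord f + ∑ i, e i * ![D0, D1] i P : ℤ) : ℝ) := fun P o => by
      simp only [Fin.sum_univ_two, Matrix.cons_val_zero, Matrix.cons_val_one, Pi.add_apply,
        Pi.smul_apply, smul_eq_mul, dv_apply]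
      push_cast
      rw [← h0, e1, x.eq P o]
      ring
    have := Kl.harto' a.ff a.big ((Dsc.dv a.smp f).add ((a.dn.smul _).add (a.dn'.smul _))) a.base
      (fun Q q1 q2 => by rw [ev Q q1]; exact_mod_cast h f0 Q ⟨q1, q2⟩) o
    rw [ev P o] at this
    exact_mod_cast this
  obtain ⟨q, d, g, G⟩ := (this ▸ fg).gens
  exact ⟨r, q, _, d, g, r0, fun P => (h0 P).symm, e1, G⟩

variable {T : Set (Pl K)} {D : Fin k → Pl K → ℤ} {d : Fin q → Fin k → ℤ} {g : Fin q → K}

/-- one monomial -/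
theorem pick (G : Gens (Un.Hs T D) univ d g) {e : Fin k → ℤ} {f : K} (hf : f ∈ Un.Hs T D e)
    (f0 : f ≠ 0) (P : Pl K) : ∃ c : Fin q → ℕ, ∑ i, c i • d i = e ∧ ∏ i, g i ^ c i ≠ 0 ∧
      P.ord (∏ i, g i ^ c i) ≤ P.ord f := by
  by_contra h
  push Not at h
  have : f ∈ P.sub (-(P.ord f + 1)) := Submodule.span_le.2 (by
    rintro _ ⟨c, hc, rfl⟩
    refine or_iff_not_imp_left.2 fun z => ?_
    have := h c hc z
    exact_mod_cast (by omega : (0 : ℤ) ≤ P.ord (∏ i, g i ^ c i) + -(P.ord f + 1)))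
      (G.le e trivial hf)
  have := this.resolve_left f0
  linarith

theorem wt (c : Fin q → ℕ) (c0 : ∏ i, g i ^ c i ≠ 0) (P : Pl K) :
    P.ord (∏ i, g i ^ c i) + ∑ j, (∑ i, c i • d i) j * D j P =
      ∑ i, c i * (P.ord (g i) + ∑ j, d i j * D j P) := by
  rw [P.ord_prod _ fun i hi => Finset.prod_ne_zero_iff.1 c0 i hi]
  simp only [P297Z.Pl.ord_pow, Finset.sum_apply, Pi.smul_apply]
  simp only [nsmul_eq_mul, Finset.sum_mul, mul_add, Finset.sum_add_distrib, Finset.mul_sum,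
    mul_assoc]
  rw [Finset.sum_comm]

/-- finitely many monomials compute the fixed part -/
theorem dick (G : Gens (Un.Hs T D) univ d g) (e : Fin k → ℤ) : ∃ s : Finset K,
    (∀ a ∈ s, a ≠ 0 ∧ a ∈ Un.Hs T D e) ∧
      ∀ f ∈ Un.Hs T D e, f ≠ 0 → ∀ P ∈ T, ∃ a ∈ s, P.ord a ≤ P.ord f := by
  classical
  let E : (Fin q → ℕ) → Prop := fun c => ∑ i, c i • d i = e ∧ ∏ i, g i ^ c i ≠ 0
  have fin : {c | Minimal E c}.Finite :=
    (setOfPred_minimal_antichain E).finite_of_wellQuasiOrdered wellQuasiOrdered_le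
  refine ⟨fin.toFinset.image fun c => ∏ i, g i ^ c i, fun a ha => ?_, fun f hf f0 P hP => ?_⟩
  · obtain ⟨c, hc, rfl⟩ := Finset.mem_image.1 ha
    have := (fin.mem_toFinset.1 hc).prop
    exact ⟨this.2, this.1 ▸ G.prod_mem (Un.fam_Hs T D) c⟩
  obtain ⟨c, c1, c2, c3⟩ := pick G hf f0 P
  obtain ⟨b, le, hb⟩ := exists_minimal_le_of_wellFoundedLT E c ⟨c1, c2⟩
  refine ⟨_, Finset.mem_image_of_mem _ (fin.mem_toFinset.2 hb), le_trans ?_ c3⟩
  obtain ⟨b', rfl⟩ := exists_add_of_le le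
  simp only [Pi.add_apply, add_smul, Finset.sum_add_distrib, pow_add, Finset.prod_mul_distrib,
    hb.prop.1, add_eq_left] at c1 c2 ⊢
  have := Un.mem_Hs.1 (c1 ▸ G.prod_mem (Un.fam_Hs T D) b') (right_ne_zero_of_mul c2) P hP
  rw [P297Z.Pl.ord_mul _ (left_ne_zero_of_mul c2) (right_ne_zero_of_mul c2)]
  simpa using this

theorem so_iff {D : Fin 2 → Pl K → ℤ} (h0 : ∀ P, (D 0 P : ℝ) = L P) (a : ℕ) (f : K) :
    So u ((a : ℝ) • L) f ↔ f ≠ 0 ∧ f ∈ Un.Hs {P | Ov u P} D ![a, 0] := by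
  rw [So, Un.mem_Hs]
  refine and_congr_right fun f0 => ?_
  simp only [Fin.sum_univ_two, Matrix.cons_val_zero, Matrix.cons_val_one, zero_mul, add_zero,
    Pi.smul_apply, smul_eq_mul, ← h0, mem_ofPred_eq, ne_eq, f0, not_false_eq_true, true_implies]
  norm_cast

end S5

/-- **STB** -/
theorem stb : STB := by
  intro n m K _ _ u Λ Γ Γ' L x a
  obtain ⟨r, q, D, d, g, -, h0, -, G⟩ := S5.setup x
  obtain ⟨s, s1, s2⟩ := S5.dick G ![a, 0]
  exact ⟨s, fun g hg => (S5.so_iff h0 a g).2 (s1 g hg), fun f hf P o =>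
    s2 f ((S5.so_iff h0 a f).1 hf).2 hf.1 P o⟩

/-- **SMP** -/
theorem smp : SMP := by
  classical
  intro n m K _ _ u Λ Γ Γ' L x
  obtain ⟨r, q, D, d, g, r0, h0, h1, G⟩ := S5.setup x
  obtain ⟨k, k1, hk⟩ := exists_lp d
  obtain ⟨s, s1, s2⟩ := stb n m K u Λ Γ Γ' L x k
  have key : ∀ P, Ov u P → ∃ f, So u ((k : ℝ) • L) f ∧ (P.ord f : ℝ) + k * L P = 0 := fun P o => by
    let Z : Fin q → Prop := fun i => g i ≠ 0 ∧ P.ord (g i) + ∑ j, d i j * D j P = 0
    have ex : ∃ t : Fin q → ℝ, (∀ i, 0 ≤ t i) ∧ (∀ i, ¬ Z i → t i = 0) ∧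
        ∀ j, ((![1, 0] : Fin 2 → ℤ) j : ℝ) = ∑ i, t i * d i j := by
      by_contra ne
      obtain ⟨v, hv⟩ := To.farkas_int' (α := Option (Fin q)) (κ := Fin 2)
        (fun i => i.elim (-![1, 0]) fun i => if Z i then d i else 0) (· = none)
        fun y y0 y1 i hi => by
          subst hi
          by_contra z
          have z' : (y none : ℝ) ≠ 0 := by exact_mod_cast z
          refine ne ⟨fun i => if Z i then y (some i) / y none else 0, fun i => ?_,
            fun i h => if_neg h, fun j => ?_⟩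
          · beta_reduce
            split_ifs
            · exact div_nonneg (Rat.cast_nonneg.2 (y0 _)) (Rat.cast_nonneg.2 (y0 _))
            · exact le_rfl
          have := congrArg ((↑) : ℚ → ℝ) (y1 j)
          simp only [Fintype.sum_option, Option.elim, Pi.neg_apply] at this
          push_cast at this
          rw [mul_neg, neg_add_eq_zero] at this
          rw [← mul_right_inj' z', Finset.mul_sum, this]
          refine Finset.sum_congr rfl fun i _ => ?_
          by_cases h : Z i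
          · simp only [if_pos h]
            field_simp
          · simp only [if_neg h]
            simp
      have v0 : v 0 < 0 := by simpa using (hv none).2 rfl
      let M : ℕ := (v 1).natAbs + 1
      have m0 : (0 : ℝ) < m := Nat.cast_pos.2 x.pos
      have M0 : (0 : ℝ) < M := by positivity
      obtain ⟨γ, γ1, γ2⟩ := x.nef (r / (m * M)) (by positivity)
      have ev : ∀ Q, Ov u Q → ((m * M : ℝ) • γ) Q = ((M * D 0 Q + D 1 Q : ℤ) : ℝ) := fun Q o => by
        rw [Pi.smul_apply, ← γ2 Q o]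
        push_cast
        rw [h0, h1, x.eq Q o]
        simp only [Pi.sub_apply, Pi.neg_apply, Pi.smul_apply, smul_eq_mul]
        field_simp
        ring
      obtain ⟨N, w, N0, nz, hw⟩ := S5.nsm (u := u) (β := (m * M : ℝ) • γ)
        ⟨_, γ1.smul (by positivity), fun _ _ => rfl⟩ fun Q o => ⟨(M * D 0 Q + D 1 Q : ℤ), by
          rw [ev Q o, Rat.cast_intCast]⟩
      have hw' : ∀ Q, Ov u Q → Q.mz w = ∑ j, ![(N * M : ℤ), N] j * D j Q := fun Q o => by
        have := hw Q o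
        rw [ev Q o, mx_apply] at this
        simp only [Fin.sum_univ_two, Matrix.cons_val_zero, Matrix.cons_val_one]
        have : (N : ℤ) * (M * D 0 Q + D 1 Q) = Q.mz w := by exact_mod_cast this
        linarith
      obtain ⟨f, f1, f0, f2⟩ := P.exists_mz nz
      obtain ⟨c, c1, c2, c3⟩ := S5.pick G (e := ![(N * M : ℤ), N]) (f := f)
        (Un.mem_Hs.2 fun _ Q o => by linarith [Q.le_mz f1 f0, hw' Q o]) f0 P
      have nn : ∀ i, c i ≠ 0 → g i ≠ 0 := fun i hi z =>
        Finset.prod_ne_zero_iff.1 c2 i (Finset.mem_univ _) (by rw [z, zero_pow hi])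
      have pos : ∀ i ∈ Finset.univ, 0 ≤ (c i : ℤ) * (P.ord (g i) + ∑ j, d i j * D j P) :=
        fun i _ => by
          by_cases hi : c i = 0
          · simp [hi]
          · exact mul_nonneg (Nat.cast_nonneg _) (Un.mem_Hs.1 (G.mem i) (nn i hi) P o)
      have zz := (Finset.sum_eq_zero_iff_of_nonneg pos).1 (le_antisymm (by
        rw [← S5.wt c c2 P, c1]; linarith [hw' P o]) (Finset.sum_nonneg pos))
      have : 0 ≤ ∑ i, (c i : ℤ) * ∑ j, d i j * v j := Finset.sum_nonneg fun i hi => by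
        by_cases z : c i = 0
        · simp [z]
        have := (hv (some i)).1
        simp only [Option.elim, if_pos (show Z i from ⟨nn i z, (mul_eq_zero.1 (zz i hi)).resolve_left
          (Nat.cast_ne_zero.2 z)⟩)] at this
        exact mul_nonneg (Nat.cast_nonneg _) this
      have e : ∑ i, (c i : ℤ) * ∑ j, d i j * v j = ∑ j, (∑ i, c i • d i) j * v j := by
        simp only [Finset.sum_apply, Pi.smul_apply]
        simp only [nsmul_eq_mul, Finset.sum_mul, Finset.mul_sum, mul_assoc]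
        rw [Finset.sum_comm]
      rw [e, c1] at this
      simp only [Fin.sum_univ_two, Matrix.cons_val_zero, Matrix.cons_val_one] at this
      have N1 : (0 : ℤ) < N := Nat.cast_pos.2 N0
      have : 0 ≤ M * v 0 + v 1 := nonneg_of_mul_nonneg_right (by linarith) N1
      have hM : v 1 < M := by simp only [M]; omega
      nlinarith [M.cast_nonneg (α := ℤ)]
    obtain ⟨t, t0, t1, t2⟩ := ex
    obtain ⟨c, c1, c2, -⟩ := hk 0 (fun _ => le_rfl) _ t t0 t2
    have z : ∀ i, c i ≠ 0 → Z i := fun i hi => by_contra fun h => hi (c1 i (t1 i h))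
    have c0 : ∏ i, g i ^ c i ≠ 0 := Finset.prod_ne_zero_iff.2 fun i _ => by
      by_cases hi : c i = 0
      · simp [hi]
      · exact pow_ne_zero _ (z i hi).1
    have e : ∑ i, c i • d i = ![(k : ℤ), 0] := by rw [← c2]; simp
    refine ⟨_, (S5.so_iff h0 k _).2 ⟨c0, e ▸ G.prod_mem (Un.fam_Hs _ D) c⟩, ?_⟩
    have := S5.wt (d := d) (D := D) c c0 P
    rw [e, Finset.sum_eq_zero (s := Finset.univ) (f := fun i => (c i : ℤ) * _) fun i _ => by
      by_cases hi : c i = 0
      · simp [hi]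
      · rw [(z i hi).2, mul_zero]] at this
    simp only [Fin.sum_univ_two, Matrix.cons_val_zero, Matrix.cons_val_one, zero_mul,
      add_zero] at this
    rw [← h0]
    exact_mod_cast this
  by_cases ne : ∃ P, Ov u P
  swap
  · exact ⟨1, {1}, le_rfl, ⟨1, by simp, one_ne_zero⟩, fun P o => (ne ⟨P, o⟩).elim⟩
  have nz : Nz s := by
    obtain ⟨P, o⟩ := ne
    obtain ⟨f, f1, -⟩ := key P o
    obtain ⟨a, ha, -⟩ := s2 f f1 P o
    exact ⟨a, ha, (s1 a ha).1⟩
  refine ⟨k, s, k1, nz, fun P o => le_antisymm ?_ ?_⟩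
  · obtain ⟨f, f1, f2⟩ := key P o
    obtain ⟨a, ha, le⟩ := s2 f f1 P o
    have := Int.cast_le (R := ℝ).2 ((neg_le_neg le).trans (P.le_mz ha (s1 a ha).1))
    rw [mx_apply]
    push_cast at this
    linarith
  · obtain ⟨a, ha, -, e⟩ := P.exists_mz nz
    have := (s1 a ha).2 P o
    rw [mx_apply, e]
    simp only [Pi.smul_apply, smul_eq_mul] at this
    push_cast
    linarith

end Vale.Agent.P283R.Ko
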