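import Vale.Agent.P283R.Ko.Kol82
import Vale.Agent.P283R.Ko.Exo59
import Vale.Agent.P283R.Ko.Inf39
import Vale.Agent.P283R.Ko.Nvo63
import Vale.Agent.P283R.Ko.Pol81
import Vale.Agent.P283R.Ko.Smp5
import Vale.Agent.P283R.Ko.Glue4

/-!
# P283R, block KO: bounded Cartier index
-/

namespace Vale.Agent.P283R

theorem Ko.kol : Ko.KOL := Ko.kolr (Ko.nvor63 Ko.pol Ko.clr39) (Ko.exor Ko.inf39) Ko.smp Ko.stb

namespace Sl

/-- `m (K + B)` is Cartier along the fibre -/
theorem onN_ko {m : ℕ} (hm : 1 ≤ m) : OnN fun _ _ _ f ω B z => CartierOver m f ω B z :=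
  onN_ko_of Ko.kol hm

/-- the local class groups along the fibre are killed by `r` -/
theorem onN_fac {r : ℕ} (hr : 1 ≤ r) : OnN fun _ _ _ f _ _ z => FactorialOver r f z :=
  onN_fac_of Ko.kol hr

end Sl

end Vale.Agent.P283R
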