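import Vale.Agent.P283R.Ko.St
import Vale.Agent.P287D.Ti.Tie
import Vale.Agent.P283R.Be.A
import Vale.Agent.P283R.Dg.Lift
import Vale.Agent.P283M.Kl.Bas

/-!
# P283R, block KO: the main step
-/

open Set

noncomputable section

namespace Vale.Agent.P283R.Ko

open Vale.Agent.P287D Vale.Agent.P283M Vale.Agent.P297Z

variable {n m j : ℕ} {K : Type} [Field K] [Algebra ℂ K] {u : Finset K} {Λ Γ Γ' L : BD K} {f : K}

theorem up (d : Dat n u Λ Γ Γ') : ∀ Q ∈ {P | Ov u P}, ∀ P, CLe Λ Q P → P ∈ {P | Ov u P} :=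
  fun _ o P c => Kl.inf_zero.1 (le_antisymm (not_lt.1 fun k =>
    (Pr.cle_mono d.base c _ (.refl (Kl.inf_nn u)) k).ne' (Kl.inf_zero.2 o)) (Kl.inf_nn u P))

/-- sections are seen on the prime divisors -/
theorem Kd.so (h : Kd n m u Λ Γ Γ' L) (f0 : f ≠ 0)
    (k : ∀ P, Ov u P → On n Λ P → -1 < (P.ord f : ℝ) + j * L P) : So u ((j : ℝ) • L) f := by
  have e : ∀ P, Ov u P → (dv f - ((j : ℝ) * m) • Γ) P = P.ord f + j * L P := fun P o => by
    rw [h.eq P o, Pi.sub_apply, Pi.smul_apply, dv_apply, smul_eq_mul]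
    ring
  refine ⟨f0, fun P o => (Kl.harto' h.dat.ff h.dat.big
    ((Dsc.dv h.dat.smp f).sub (h.dat.dn.smul _)) h.dat.base (fun R r s => ?_) o).trans_eq (e P o)⟩
  obtain ⟨z, hz⟩ := CarZ.int h.int R
  have a := k R r s
  rw [e R r]
  rw [hz] at a ⊢
  have b : (-1 : ℤ) < R.ord f + j * z := by exact_mod_cast a
  have c : (0 : ℤ) ≤ R.ord f + j * z := by omega
  exact_mod_cast c

theorem So.pow (h : So u ((j : ℝ) • L) f) (c : ℕ) : So u (((j * c : ℕ) : ℝ) • L) (f ^ c) :=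
  ⟨pow_ne_zero _ h.1, fun P o => by
    have := mul_nonneg (Nat.cast_nonneg (α := ℝ) c) (h.2 P o)
    rw [Pl.ord_pow]
    simp only [Pi.smul_apply, smul_eq_mul] at this ⊢
    push_cast
    linarith⟩

theorem nz_rs' (P : Pl K) {s : Finset K} (h : Nz s) : Nz (P.rs s) := by
  classical
  obtain ⟨f, f1, f0, e⟩ := P.exists_mz h
  refine ⟨_, Finset.mem_image_of_mem _ f1, fun z => ?_⟩
  have n0 := mul_ne_zero f0 (zpow_ne_zero (P.mz s) P.t_ne)
  have o : P.ord (f * P.t ^ P.mz s) = 0 := by rw [P.ord_mul_t f0, e, add_neg_cancel]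
  exact ((Bm.rd_zero_iff P ((Pl.ord_nonneg_iff P.toPlace n0).1 o.ge)).1 z).elim n0 o.not_gt

open Classical in
theorem res_ov (hK : FF K (n + 1)) {P : Pl K} (o : Ov u P) {α β : BD K} (a : α ∈ Car K)
    (b : β ∈ Car K) (e : ∀ R, Ov u R → α R = β R) {Q : Pl P.κ} (q : Ov (u.image P.rd) Q) :
    res P α Q = res P β Q := by
  have := Dg.Lf.res_off hK (sub_mem a b) (Kl.inf_smp u).car (sub_eq_zero.2 (e P o))
    (Kl.inf_zero.2 o) (fun R r => sub_eq_zero.2 (e R (Kl.inf_zero.1 r))) (Q := Q)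
    (by rw [Kl.res_inf hK o]; exact Kl.inf_zero.2 q)
  rwa [res_sub hK P a b, Pi.sub_apply, sub_eq_zero] at this

/-- a section which does not vanish along the place of a plt pair -/
theorem Kd.lift (nvo : NVO) (exo : EXO) (h : Kd n m u Λ Γ Γ' L) {k : ℕ} {s : Finset K} (k1 : 1 ≤ k)
    (nz : Nz s) (e : ∀ P, Ov u P → k * L P = mx s P) {G X : BD K} {P : Pl K} (gc : G ∈ Car K)
    (o : Ov u P) (lc : dsc (n + 1) G P = -1) (pl : ∀ Q, Ov u Q → Q ≠ P → -1 < dsc (n + 1) G Q)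
    (bd : ∀ Q, Ov u Q → On n Λ Q → dsc (n + 1) G Q ≤ 0) (xs : Smp X) (xb : Big X)
    (xr : Big (res P X)) (ex : ∀ R, Ov u R → (L - G) R = X R) :
    ∃ j : ℕ, 1 ≤ j ∧ j ≤ n + 1 ∧ ∃ f, So u ((j : ℝ) • L) f ∧ (P.ord f : ℝ) + j * L P = 0 := by
  classical
  have hK := h.dat.ff
  have lc' := CarZ.car h.int
  have k0 : (0 : ℝ) < k := by exact_mod_cast k1
  obtain ⟨w, -, hw⟩ := Dg.Lf.adj_w hK P
  have pr : res P X - dv w - res P X ∈ Prn P.κ := by
    rw [sub_sub_cancel_left]; exact neg_mem (dv_mem_Prn w)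
  obtain ⟨j, j1, j2, g, hg⟩ := nvo n P.κ (Bm.ff_κ hK P) (u.image P.rd) (P.rs s) (res P L)
    (adj n P G) k (res_carZ hK P h.int) (a1 n K hK P G gc).1 k1 (nz_rs' P nz)
    (fun Q q => by
      have := res_ov hK o (Submodule.smul_mem _ (k : ℝ) lc') (mx_mem_Car s) e q
      rwa [res_smul hK P _ lc', res_mx hK] at this)
    (fun Q q => by
      obtain ⟨T, ⟨t1, t2⟩, -, -, -, t3⟩ := a2 n K hK P Q {G, inf u} (inf u) 0 (toFinite _)
        (by simp [insert_subset_iff, gc, (Kl.inf_smp u).car]) (Kl.inf_smp u).car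
      have a := t3 G (by simp)
      have b := t2 (inf u) (by simp)
      rw [Kl.res_inf hK o, Kl.inf_zero.2 q, Kl.inf_zero.2 o, zero_mul, add_zero] at b
      rw [lc, neg_add_cancel, zero_mul, add_zero] at a
      exact a ▸ pl T (Kl.inf_zero.1 b) t1)
    ⟨res P X - dv w, (res_smp hK P xs).nef.congr pr, xr.congr pr, fun Q q => by
      have := res_ov hK o (sub_mem lc' gc) xs.car ex q
      rw [res_sub hK P lc' gc] at this
      rw [hw G gc]
      simp only [Pi.sub_apply, Pi.add_apply] at this ⊢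
      linarith⟩
  have j0 : (0 : ℝ) ≤ ((j : ℝ) - 1) / k :=
    div_nonneg (sub_nonneg.2 (by exact_mod_cast j1)) k0.le
  obtain ⟨f, f0, f1, f2⟩ := exo n K hK P u ((j : ℝ) • L) G g (CarZ.nsmul h.int j) gc o lc
    ⟨X + (((j : ℝ) - 1) / k) • mx s, (xs.add ((smp_mx s).smul j0)).nef,
      xb.add_smp ((smp_mx s).smul j0), fun R r => by
        have a := ex R r
        simp only [Pi.sub_apply, Pi.add_apply, Pi.smul_apply, smul_eq_mul] at a ⊢
        rw [← e R r, ← mul_assoc, div_mul_cancel₀ _ k0.ne']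
        linarith⟩ (by rwa [res_smul hK P _ lc'])
  refine ⟨j, j1, j2, f, h.so f0 fun R r p => ?_, f1⟩
  rcases eq_or_ne R P with rfl | ne
  · exact neg_one_lt_zero.trans_eq f1.symm
  · have a := f2 R ne r
    have b := bd R r p
    simp only [dsc, Pi.sub_apply, Pi.smul_apply, smul_eq_mul] at a b
    linarith

theorem kolr : KOLR := by
  intro nvo exo smp stb n m K _ _ u Λ Γ Γ' L h
  classical
  have d := h.dat
  have hK := d.ff
  obtain ⟨k, s₀, k1, nz₀, e₀⟩ := smp n m K u Λ Γ Γ' L h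
  obtain ⟨ε, ε0, γ, sγ, eγ⟩ := d.amp
  have da : ∀ j, 1 ≤ j → j ≤ n + 2 → ∃ c, (n + 2).factorial = j * c := fun j a b =>
    Nat.dvd_factorial a b
  have a2 : 2 ≤ (n + 2).factorial := le_trans (by omega) (Nat.self_le_factorial _)
  generalize (n + 2).factorial = a at da a2
  obtain ⟨s, s1, s2⟩ := stb n m K u Λ Γ Γ' L h a
  by_cases ne : ∃ P, Ov u P
  swap
  · exact ⟨1, 1, one_ne_zero, by simp, fun P p => (ne ⟨P, p⟩).elim⟩
  obtain ⟨P₀, o₀⟩ := ne
  have k0 : (0 : ℝ) < k := by exact_mod_cast k1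
  have m1 : (1 : ℝ) ≤ m := by exact_mod_cast h.pos
  have a1 : (2 : ℝ) ≤ a := by exact_mod_cast a2
  have sk := (smp_mx s₀).smul (inv_pos.2 k0).le
  have eL : ∀ P, Ov u P → L P = (k : ℝ)⁻¹ * mx s₀ P := fun P o => by
    rw [← e₀ P o, inv_mul_cancel_left₀ k0.ne']
  have nz : Nz s := by
    obtain ⟨j, j1, j2, f, f0, hf⟩ := nvo (n + 1) K hK u s₀ L Γ' k h.int d.car'.car k1 nz₀ e₀ d.klt
      ⟨ε • Λ + ((k : ℝ)⁻¹ • mx s₀ + γ), ((d.smp.smul ε0.le).add (sk.add sγ)).nef,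
        (d.big.smul ε0).add_smp (sk.add sγ), fun P o => by
          have a := eγ P o
          simp only [Pi.sub_apply, Pi.add_apply, Pi.smul_apply, Pi.neg_apply, smul_eq_mul] at a ⊢
          linarith [eL P o]⟩
    obtain ⟨c, hc⟩ := da j j1 j2
    obtain ⟨g, g1, -⟩ := s2 _ (hc ▸ (h.so (j := j) f0 fun P o p => by
      have a := hf P o
      have b := d.bdy P o p
      simp only [dsc, Pi.sub_apply, Pi.smul_apply, smul_eq_mul] at a b
      linarith).pow c) P₀ o₀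
    exact ⟨g, g1, (s1 g g1).1⟩
  obtain ⟨N, hN⟩ : ∃ N : ℝ, N = ((a * m : ℕ) : ℝ) := ⟨_, rfl⟩
  have eN : N = a * m := by rw [hN, Nat.cast_mul]
  have N2 : 2 ≤ N := by nlinarith
  have N0 : 0 < N := by linarith
  have η0 : 0 < N⁻¹ := inv_pos.2 N0
  have eg : ∀ g ∈ s, ∀ P, Ov u P → 0 ≤ (dv g - N • Γ) P := fun g hg P o => by
    have := (s1 g hg).2 P o
    simp only [Pi.sub_apply, Pi.smul_apply, smul_eq_mul, dv_apply, h.eq P o, eN] at this ⊢
    linarith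
  by_cases kl : ∀ Q, Ov u Q → -1 < dsc (n + 1) (0 - N⁻¹ • mx s) Q
  · obtain ⟨f, f1, f0, f2⟩ := Be.ber_klt hK (zero_mem _) d.smp.car (up d) η0.le
      (inv_lt_one_of_one_lt₀ (by linarith)) kl nz
    refine ⟨f, 1, f0, by simp, fun P o _ => ⟨fun _ => ?_, ?_⟩⟩
    · obtain ⟨g, g1, -, g2⟩ := P.exists_mz nz
      have x := (sec_of_span f1).resolve_left f0 P
      have y := eg g g1 P o
      simp only [Pi.sub_apply, Pi.add_apply, Pi.smul_apply, Pi.zero_apply, smul_eq_mul, dv_apply,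
        mx_apply, g2, Int.cast_neg] at x y
      rw [← hN, dv_apply, le_inv_mul_iff₀ N0]
      linarith
    · have := f2 P o
      rwa [zero_add, hN] at this
  exfalso
  push Not at kl
  obtain ⟨R, r1, r2⟩ := kl
  choose c c0 hc using fun g : s => Kl.harto hK d.big ((Dsc.dv d.smp g).sub (d.dn.smul N)) d.base
    fun P o _ => eg g g.2 P o
  obtain ⟨C, hC⟩ := (Finset.univ.image c).exists_le
  obtain ⟨F, hF⟩ : ∃ F, F = C • inf u - N • Γ - mx s := ⟨_, rfl⟩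
  have Fc : F ∈ Car K := hF ▸ sub_mem (sub_mem (Submodule.smul_mem _ _ (Kl.inf_smp u).car)
    (Submodule.smul_mem _ _ d.car.car)) (mx_mem_Car s)
  have F0 : 0 ≤ F := fun P => by
    obtain ⟨g, g1, -, g2⟩ := P.exists_mz nz
    have x := hc ⟨g, g1⟩ C (hC _ (Finset.mem_image_of_mem _ (Finset.mem_univ _))) P
    simp only [hF, Pi.sub_apply, Pi.add_apply, Pi.smul_apply, Pi.zero_apply, smul_eq_mul, dv_apply,
      mx_apply, g2, Int.cast_neg] at x ⊢
    linarith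
  have Fv : ∀ P, Ov u P → N⁻¹ * F P = -Γ P - N⁻¹ * mx s P := fun P o => by
    simp only [hF, Pi.sub_apply, Pi.smul_apply, smul_eq_mul, Kl.inf_zero.2 o]
    field_simp
    ring
  have r3 := h.klt R r1
  have r4 := Fv R r1
  simp only [dsc, Pi.sub_apply, Pi.smul_apply, Pi.zero_apply, smul_eq_mul] at r2 r3
  have r5 : 0 < N⁻¹ * F R := by linarith
  have x0 : 0 < |Γ R - Γ' R| + 1 := by positivity
  obtain ⟨t, t0, t1, t2⟩ : ∃ t : ℝ, 0 < t ∧ t ≤ 1 / 2 ∧ t * (Γ R - Γ' R) ≤ N⁻¹ * F R / 2 := by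
    have p : 0 < N⁻¹ * F R / 2 / (|Γ R - Γ' R| + 1) := by positivity
    refine ⟨_, lt_min one_half_pos p, min_le_left _ _, ?_⟩
    have q := (le_div_iff₀ x0).1 (min_le_right (1 / 2) (N⁻¹ * F R / 2 / (|Γ R - Γ' R| + 1)))
    have := lt_min one_half_pos p
    nlinarith [le_abs_self (Γ R - Γ' R)]
  have tc : Γ + t • (Γ' - Γ) ∈ Car K :=
    add_mem d.car.car (Submodule.smul_mem _ _ (sub_mem d.car'.car d.car.car))
  have dt : ∀ Q, dsc (n + 1) (Γ + t • (Γ' - Γ)) Q =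
      (1 - t) * dsc (n + 1) Γ Q + t * dsc (n + 1) Γ' Q := fun Q => by
    simp only [dsc, Pi.sub_apply, Pi.add_apply, Pi.smul_apply, smul_eq_mul]
    ring
  have p3 : 0 < 3 / 2 * N⁻¹ := by positivity
  have gc := Submodule.smul_mem _ (3 / 2 * N⁻¹) Fc
  obtain ⟨μ, D, P, p1, μ0, μ1, d0, dc, ds, db, dr, p0, lc, pl⟩ := Ti.tie_big0
    (S := {Q | Ov u Q}) (R := R) hK d.smp.nef d.big tc gc (smul_nonneg p3.le F0) (up d)
    (fun Q o => by
      rw [dt]
      nlinarith [h.klt Q o, d.klt Q o])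
    r1 (by
      simp only [dsc, Pi.sub_apply, Pi.add_apply, Pi.smul_apply, smul_eq_mul]
      linarith) (mul_pos t0 ε0)
  have p0 : Ov u P := p0
  have c1 : 0 ≤ (m + 1 - t - 3 / 2 * μ) / (k * m) := div_nonneg (by linarith) (by positivity)
  have sW := ((smp_mx s₀).smul c1).add
    (((smp_mx s).smul (mul_pos μ0 p3).le).add (sγ.smul t0.le))
  obtain ⟨j, j1, j2, f, f1, f2⟩ := h.lift nvo exo k1 nz₀ e₀
    (add_mem (add_mem tc (Submodule.smul_mem _ μ gc)) dc) p0 lc pl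
    (fun Q o p => by
      rw [Pr.dsc_add, Pr.dsc_add_smul, dt]
      have := mul_nonneg μ0.le (smul_nonneg p3.le F0 Q)
      have : 0 ≤ D Q := d0 Q
      nlinarith [h.bdy Q o p, d.bdy Q o p])
    (ds.add sW) (db.add_smp sW)
    (by rw [res_add hK P ds.car sW.car]; exact dr.add_smp (res_smp hK P sW))
    fun Q o => by
      have x := eγ Q o
      have y := Fv Q o
      have z : (m + 1 - t - 3 / 2 * μ) / (k * m) * mx s₀ Q = -((m + 1 - t - 3 / 2 * μ) * Γ Q) := by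
        rw [← e₀ Q o, h.eq Q o]
        field_simp
      simp only [Pi.sub_apply, Pi.add_apply, Pi.smul_apply, Pi.neg_apply, smul_eq_mul] at x ⊢
      rw [z, h.eq Q o, ← x]
      linear_combination (-(3 / 2) * μ) * y
  obtain ⟨b, hb⟩ := da j j1 (by omega)
  obtain ⟨g, g1, g2⟩ := s2 _ (hb ▸ f1.pow b) P p0
  have x := P.le_mz g1 (s1 g g1).1
  rw [Pl.ord_pow] at g2
  have x1 : -((b : ℝ) * P.ord f) ≤ mx s P := by
    rw [mx_apply]
    exact_mod_cast (neg_le_neg g2).trans x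
  have x2 : N = j * b * m := by rw [eN, hb, Nat.cast_mul]
  have x3 : 0 < N⁻¹ * F P := mul_pos η0 ((mul_pos_iff_of_pos_left p3).1 p1)
  rw [Fv P p0, sub_pos, inv_mul_lt_iff₀ N0, x2] at x3
  rw [h.eq P p0] at f2
  have x4 : (b : ℝ) * P.ord f = b * (j * (m * Γ P)) := by
    rw [show (P.ord f : ℝ) = j * (m * Γ P) by linarith]
  linarith

end Vale.Agent.P283R.Ko
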