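import Vale.Agent.P283R.Ko.St
import Vale.Agent.P287D.Api.Adj
import Vale.Agent.P287D.Gf.Vp
import Vale.Agent.P287D.Gf.Six

/-!
# P283R, block KO: the row NVOR
-/

open Set

noncomputable section

namespace Vale.Agent.P283R.Ko

open Vale.Agent.P287D Vale.Agent.P283M Vale.Agent.P297Z

namespace N88

variable {K : Type} [Field K] [Algebra ℂ K]

theorem hor {u : Finset K} {Q : Pl K} (h : Tv u Q) :
    Hor (cl (IntermediateField.adjoin ℂ (u : Set K))) Q := by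
  set L₀ := IntermediateField.adjoin ℂ (u : Set K)
  have h0 : ∀ a : L₀, algebraMap L₀ K a ∈ Q.ring := by
    rintro ⟨a, ha⟩
    obtain ⟨p, hp, q, hq, rfl⟩ := IntermediateField.mem_adjoin_iff_div.1 ha
    change _ / _ ∈ Q.ring
    by_cases p0 : p = 0
    · simp [p0, zero_mem]
    by_cases q0 : q = 0
    · simp [q0, zero_mem]
    refine (Pl.ord_nonneg_iff _ (div_ne_zero p0 q0)).1 ?_
    rw [div_eq_mul_inv, Pl.ord_mul _ p0 (inv_ne_zero q0), Pl.ord_inv, h p hp p0, h q hq q0]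
    simp
  intro a ha
  obtain ⟨p, p1, p2⟩ := (mem_algebraicClosure_iff.1 ha : IsAlgebraic L₀ a).isIntegral
  exact Gf.int_mem Q.ring h0 p1 p2

theorem ov {u : Finset K} {Q : Pl K} (h : Hor (cl (IntermediateField.adjoin ℂ (u : Set K))) Q) :
    Ov u Q := fun a ha => h a (mem_algebraicClosure_iff.2
      (isAlgebraic_algebraMap (⟨a, IntermediateField.subset_adjoin ℂ _ ha⟩ :
        IntermediateField.adjoin ℂ (u : Set K))))

end N88

theorem nvor : NVOR := by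
  intro pol clr n K _ _ hK u s L Γ k hL hΓ hk ⟨g, gs, g0⟩ hs klt ⟨X, nX, bX, eX⟩
  obtain ⟨r, hr, hE⟩ := Api.ffs.sub n K hK (cl (IntermediateField.adjoin ℂ (u : Set K)))
  obtain ⟨m, rfl⟩ := Nat.exists_eq_add_of_le hr
  obtain ⟨K', _, _, φ, gf⟩ := g1 K _ (Gf.cld_cl _) ⟨r, hE⟩
  have G : GFd r m _ φ := ⟨gf, hK, hE⟩
  obtain ⟨f₀, f0, e0⟩ := g4 r m K K' _ φ G
  have ed : ∀ β : BD K, dsc m (pb φ β + dv f₀) = pb φ (dsc (r + m) β) := fun β => by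
    rw [dsc, dsc, e0, pb_sub]; abel
  have bl : ∀ P : Pl K', ∃ Q : Pl K, Ov u Q ∧ (∀ β : BD K, pb φ β P = β Q) ∧
      ∀ f, P.ord (φ f) = Q.ord f := fun P => by
    obtain ⟨Q, hQ⟩ := gf.below G.ff P
    exact ⟨Q, N88.ov (gf.toExt.hor hQ), gf.pb_eq hQ, gf.ord_eq hQ⟩
  have e1 : (k : ℝ) • pb φ L = mx (P287D.im φ s) := by
    rw [← pb_smul, ← G.ok.pb_mx]
    exact G.pb_eq.2 fun Q hQ => hs Q (N88.ov hQ)
  have e2 : pb φ L - (pb φ Γ + dv f₀) = pb φ X + -dv f₀ := by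
    rw [← G.pb_eq.2 fun Q hQ => eX Q (N88.ov hQ), pb_sub]; abel
  have e3 : ∀ j : ℝ, pb φ Γ + dv f₀ - j • pb φ L = pb φ (Γ - j • L) + dv f₀ := fun j => by
    rw [pb_sub, pb_smul]; abel
  obtain ⟨j, j1, j2, f', f1, f2⟩ := pol m K' G.ff (pb φ L) (pb φ Γ + dv f₀) k (G.ok.carZ hL)
    (Nef.of_smul (c := k) (by exact_mod_cast hk) (e1 ▸ nef_mx _))
    (e2 ▸ (G.ok.nef nX).add_prn (neg_mem (dv_mem_Prn _)))
    (e2 ▸ (Gx.big_pb G.ok gf.gen bX).add_prn (neg_mem (dv_mem_Prn _))) hk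
    ⟨φ g, (map_ne_zero _).2 g0, fun P _ => by
      obtain ⟨Q, q1, q2, q3⟩ := bl P
      rw [e3, ed, q2, q3]
      have a1 := klt Q q1
      have a2 := hs Q q1
      have a3 : (-Q.ord g : ℝ) ≤ Q.mz s := by exact_mod_cast Q.le_mz gs g0
      simp only [dsc, Pi.sub_apply, Pi.smul_apply, smul_eq_mul, mx_apply] at a1 a2 ⊢
      linarith⟩
  let β : BD K := fun Q => (⌈dsc (r + m) (Γ - (j : ℝ) • L) Q⌉ : ℤ)
  have sc : P287D.Sec (pb φ β) f' := Or.inr fun P => by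
    obtain ⟨Q, -, q2, -⟩ := bl P
    have a1 := f2 P (fun a ha => absurd ha (Finset.notMem_empty a))
    rw [e3, ed, q2] at a1
    have a2 : -1 - P.ord f' < ⌈dsc (r + m) (Γ - (j : ℝ) • L) Q⌉ :=
      Int.lt_ceil.2 (by push_cast; linarith)
    have a3 : (0 : ℤ) ≤ P.ord f' + ⌈dsc (r + m) (Γ - (j : ℝ) • L) Q⌉ := by omega
    simp only [Pi.add_apply, Pi.zero_apply, dv_apply, q2, β]
    exact_mod_cast a3
  have ds := gf.des_sec G.ok sc
  obtain ⟨f, f3, f4⟩ : ∃ f : K, f ≠ 0 ∧ 0 ≤ pb φ (dv f + β) := by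
    by_contra! c
    rw [show {f : K | f ≠ 0 ∧ 0 ≤ pb φ (dv f + β)} = ∅ from
      eq_empty_of_forall_notMem fun f h => c f h.1 h.2, image_empty, Submodule.span_empty] at ds
    exact f1 ds
  obtain ⟨b, b0, hb⟩ := clr (r + m) K hK u (Γ - (j : ℝ) • L - dv f)
    (sub_mem (sub_mem hΓ (Submodule.smul_mem _ _ (CarZ.car hL))) (dv_mem_Car f)) fun Q hQ => by
      have a1 := G.pb_nonneg.1 f4 Q (N88.hor hQ)
      have a2 := Int.ceil_lt_add_one (dsc (r + m) (Γ - (j : ℝ) • L) Q)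
      simp only [Pi.add_apply, dv_apply, β] at a1
      simp only [dsc, Pi.sub_apply, dv_apply] at a1 a2 ⊢
      linarith
  refine ⟨j, j1, by omega, f * b, mul_ne_zero f3 b0, fun P hP => ?_⟩
  have a1 := hb P hP
  rw [Pl.ord_mul _ f3 b0]
  simp only [dsc, Pi.sub_apply, dv_apply] at a1 ⊢
  push_cast
  linarith

end Vale.Agent.P283R.Ko
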