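import Vale.Agent.P283M.Qv
import Vale.Agent.P287D.Ad.Df
import Vale.Agent.P287D.St

/-!
# P283R, block KO: bounded Cartier index, the rows
-/

open Set

noncomputable section

namespace Vale.Agent.P283R.Ko

open Vale.Agent.P287D Vale.Agent.P283M

section defs

variable {K : Type} [Field K] [Algebra ℂ K]

/-- nef and big over `V` -/
def NbO (u : Finset K) (β : BD K) : Prop := ∃ X, Nef X ∧ Big X ∧ ∀ P, Ov u P → β P = X P

/-- a nonzero section over `V` -/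
def So (u : Finset K) (β : BD K) (f : K) : Prop :=
  f ≠ 0 ∧ ∀ P, Ov u P → 0 ≤ (P.ord f : ℝ) + β P

/-- a nonzero adjoint section over `V` -/
def Ao (n : ℕ) (u : Finset K) (Γ : BD K) (f : K) : Prop :=
  f ≠ 0 ∧ ∀ P, Ov u P → -1 < dsc n Γ P + P.ord f

/-- the place is trivial on the base -/
def Tv (u : Finset K) (P : Pl K) : Prop :=
  ∀ b ∈ Algebra.adjoin ℂ (u : Set K), b ≠ 0 → P.ord b = 0

/-- the data: `L = -m (K + B)` is Cartier over `V` -/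
structure Kd (n m : ℕ) (u : Finset K) (Λ Γ Γ' L : BD K) : Prop where
  dat : Dat n u Λ Γ Γ'
  nef : ∀ δ : ℝ, 0 < δ → SmpO u (-Γ - δ • Γ')
  klt : ∀ P, Ov u P → -1 < dsc (n + 1) Γ P
  bdy : ∀ P, Ov u P → On n Λ P → dsc (n + 1) Γ P ≤ 0
  pos : 1 ≤ m
  int : L ∈ CarZ K
  eq : ∀ P, Ov u P → L P = -(m * Γ P)

end defs

/-- **POL**: the number of adjoint sections is a polynomial of degree at most `n` -/
def POL : Prop := ForK fun n K _ _ => ∀ (L Γ : BD K) (J : ℕ), L ∈ CarZ K → Nef L → Nef (L - Γ) →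
  Big (L - Γ) → 1 ≤ J → (∃ f, Ao n ∅ (Γ - (J : ℝ) • L) f) →
  ∃ j : ℕ, 1 ≤ j ∧ j ≤ n + 1 ∧ ∃ f, Ao n ∅ (Γ - (j : ℝ) • L) f

/-- **INF**: klt at infinity -/
def INF : Prop := ForK fun n K _ _ => ∀ (u : Finset K) (β : BD K), β ∈ Car K →
  (∀ Q, Ov u Q → -1 < dsc n β Q) → ∃ c : ℝ, 0 ≤ c ∧ ∀ Q, -1 < dsc n (β - c • inf u) Q

/-- **CLR**: the vertical poles are cleared by a function on the base -/
def CLR : Prop := ForK fun n K _ _ => ∀ (u : Finset K) (β : BD K), β ∈ Car K →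
  (∀ Q, Tv u Q → -1 < dsc n β Q) → ∃ b, Ao n u β b

/-- **NVO**: effective non-vanishing over the base -/
def NVO : Prop := ForK fun n K _ _ => ∀ (u s : Finset K) (L Γ : BD K) (k : ℕ), L ∈ CarZ K →
  Γ ∈ Car K → 1 ≤ k → (∃ g ∈ s, g ≠ 0) → (∀ P, Ov u P → k * L P = mx s P) →
  (∀ P, Ov u P → -1 < dsc n Γ P) → NbO u (L - Γ) →
  ∃ j : ℕ, 1 ≤ j ∧ j ≤ n + 1 ∧ ∃ f, Ao n u (Γ - (j : ℝ) • L) f

/-- `NVO` from `POL` on the generic fibre -/
def NVOR : Prop := POL → CLR → NVO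

open Classical in
/-- **EXO**: extension over the base -/
def EXO : Prop := ForP fun n K _ _ P => ∀ (u : Finset K) (L Γ : BD K) (w : P.κ), L ∈ CarZ K →
  Γ ∈ Car K → Ov u P → dsc (n + 1) Γ P = -1 → NbO u (L - Γ) →
  Ao n (u.image P.rd) (adj n P Γ - res P L) w →
  ∃ f : K, f ≠ 0 ∧ (P.ord f : ℝ) + L P = 0 ∧
    ∀ R, R ≠ P → Ov u R → -1 < dsc (n + 1) (Γ - L) R + R.ord f

/-- `EXO` from `INF` -/
def EXOR : Prop := INF → EXO

/-- a statement for all data -/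
def ForD (A : ∀ (_ _ : ℕ) (K : Type) [Field K] [Algebra ℂ K], Finset K → BD K → BD K → BD K →
    Prop) : Prop :=
  ∀ (n m : ℕ) (K : Type) [Field K] [Algebra ℂ K] (u : Finset K) (Λ Γ Γ' L : BD K),
    Kd n m u Λ Γ Γ' L → A n m K u Λ Γ L

/-- **SMP**: the base point free theorem over the base -/
def SMP : Prop := ForD fun _ _ K _ _ u _ _ L => ∃ (k : ℕ) (s : Finset K), 1 ≤ k ∧
  (∃ g ∈ s, g ≠ 0) ∧ ∀ P, Ov u P → k * L P = mx s P

/-- **STB**: finitely many sections compute the fixed part -/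
def STB : Prop := ForD fun _ _ K _ _ u _ _ L => ∀ a : ℕ, ∃ s : Finset K,
  (∀ g ∈ s, So u ((a : ℝ) • L) g) ∧
    ∀ f, So u ((a : ℝ) • L) f → ∀ P, Ov u P → ∃ g ∈ s, P.ord g ≤ P.ord f

/-- **KOL**: the complement -/
def KOL : Prop := ForD fun n m _ _ _ u Λ Γ _ => Cpl n ((n + 2).factorial * m) u Λ Γ

/-- the main step -/
def KOLR : Prop := NVO → EXO → SMP → STB → KOL

end Vale.Agent.P283R.Ko
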