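import Vale.Agent.P283R.Ko.St
import Vale.Agent.P283R.Cx.Gv
import Vale.Agent.P283R.Lx.Fim40
import Vale.Agent.P283R.To.Cv

/-!
# P283R, block KO: finitely many sections compute the fixed part
-/

open Set

noncomputable section

namespace Vale.Agent.P283R.Ko

open Vale.Agent.P287D Vale.Agent.P283M

/-- the ring of sections of `L` over the base is finitely generated -/
theorem S27.gen {n m : ℕ} {K : Type} [Field K] [Algebra ℂ K] {u : Finset K} {Λ Γ Γ' L : BD K}
    (h : Kd n m u Λ Γ Γ' L) : ∃ (N : ℕ) (s : Fin N → K) (a : Fin N → Fin 1 → ℤ),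
      ∀ (e : ℤ) φ, φ ≠ 0 → (φ ∈ Cx.Sp s a (fun _ => e) ↔ So u ((e : ℝ) • L) φ) := by
  choose l hl using CarZ.int h.int
  obtain ⟨N, s, a, k⟩ := Cx.ut n K u Λ Γ Γ' 1 (fun P _ => l P) h.dat fun _ =>
    (To.Cv.fin_car h.dat (CarZ.car h.int)).subset fun P hP =>
      ⟨hP.1.2, by rw [hl]; exact_mod_cast hP.2⟩
  refine ⟨N, s, a, fun e φ φ0 => (k _ φ φ0).trans ⟨fun t => ⟨φ0, fun P o => ?_⟩, fun t P hP => ?_⟩⟩
  · have := Kl.harto' h.dat.ff h.dat.big
      ((Dsc.dv h.dat.smp φ).add (h.dat.dn.smul (-(e * m)))) h.dat.base (fun Q o p => by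
        have := t Q ⟨o, p⟩
        simp only [dotProduct, Finset.univ_unique, Finset.sum_singleton] at this
        have e' : (0 : ℝ) ≤ Q.ord φ + e * l Q := by exact_mod_cast this
        rw [← hl, h.eq Q o] at e'
        simp only [Pi.add_apply, Pi.smul_apply, smul_eq_mul, dv]
        linarith) o
    simp only [Pi.add_apply, Pi.smul_apply, smul_eq_mul, dv] at this ⊢
    rw [h.eq P o]
    linarith
  · have := t.2 P hP.1
    simp only [Pi.smul_apply, smul_eq_mul, hl] at this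
    simp only [dotProduct, Finset.univ_unique, Finset.sum_singleton]
    exact_mod_cast this

theorem stb27 : STB := fun n m K _ _ u Λ Γ Γ' L h a => by
  classical
  obtain ⟨N, s, d, k⟩ := S27.gen h
  obtain ⟨r, φ, h1, h2⟩ := Lx.fim40 K 1 N s d fun _ => (a : ℤ)
  refine ⟨(Finset.univ.image φ).filter (· ≠ 0), fun g hg => ?_, fun f hf P o => ?_⟩
  · obtain ⟨hg, g0⟩ := Finset.mem_filter.1 hg
    obtain ⟨i, -, rfl⟩ := Finset.mem_image.1 hg
    exact_mod_cast (k a _ g0).1 (h1 i)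
  obtain ⟨c, hc, e⟩ := h2 f ((k a f hf.1).2 (by exact_mod_cast hf))
  by_contra! t
  have : f ∈ P.sub (-(P.ord f + 1)) := by
    conv_rhs => rw [e]
    refine sum_mem fun i _ => or_iff_not_imp_left.2 fun z => ?_
    have c0 := left_ne_zero_of_mul z
    have φ0 := right_ne_zero_of_mul z
    have a1 := ((k 0 _ c0).1 (hc i)).2 P o
    have a2 : P.ord f + 1 ≤ P.ord (φ i) :=
      t _ (Finset.mem_filter.2 ⟨Finset.mem_image_of_mem _ (Finset.mem_univ i), φ0⟩)
    have a3 : (P.ord f : ℝ) + 1 ≤ P.ord (φ i) := by exact_mod_cast a2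
    rw [P297Z.Pl.ord_mul _ c0 φ0]
    simp only [Int.cast_zero, zero_smul, Pi.zero_apply, add_zero] at a1
    push_cast
    linarith
  linarith [this.resolve_left hf.1]

end Vale.Agent.P283R.Ko
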